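import Mathlib
import Vale.Agent.P116.H906.Nodes

/-!
# P116, block [7], part (7c): selection of nodes

`lo i Q`, `hi i Q`: lower and upper value of the `i`-th function on the node `Q`; `a i z`, `b i z`:
their limits along the nodes of `z ∈ K`. There is a finite family of disjoint nodes covering
`K ∩ w`, finitely many of them marked (they contain the big ends), such that for the others the
union of the slightly enlarged boxes has small area.
-/

open Set Filter Topology Metric MeasureTheory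
open scoped ENNReal

namespace Vale.Agent.P116.KB.H984

open H906

variable {K : Set ℂ}

/-- nodes are nested or disjoint -/
lemma nd_nested {x y : ℂ} {m n : ℕ} (hmn : m ≤ n) (h : ¬ Disjoint (nd K m x) (nd K n y)) :
    nd K n y ⊆ nd K m x := by
  obtain ⟨z, hz1, hz2⟩ := not_disjoint_iff.1 h
  rw [← nd_eq hz1, ← nd_eq hz2]
  exact nd_anti hmn

lemma nd_congr {z y : ℂ} (hy : y ∈ K) (h : connectedComponentIn K z = connectedComponentIn K y)
    (n : ℕ) : nd K n z = nd K n y := by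
  have h1 : y ∈ connectedComponentIn K z := h ▸ mem_connectedComponentIn hy
  exact (nd_eq (connectedComponentIn_mono _ (subset_lev n) h1)).symm

/-- the box of a node -/
def BoxN {ι : Type*} (lo hi : ι → Set ℂ → ℝ) (ρ : ℝ) (i j : ι) (Q : Set ℂ) : Set (ℝ × ℝ) :=
  {p | lo i Q - ρ ≤ p.1 ∧ p.1 ≤ hi i Q + ρ ∧ lo j Q - ρ ≤ p.2 ∧ p.2 ≤ hi j Q + ρ}

/-- the box of a point -/
def BoxP {ι : Type*} (a b : ι → ℂ → ℝ) (i j : ι) (z : ℂ) : Set (ℝ × ℝ) :=
  {p | a i z ≤ p.1 ∧ p.1 ≤ b i z ∧ a j z ≤ p.2 ∧ p.2 ≤ b j z}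

lemma BoxP_eq {ι : Type*} (a b : ι → ℂ → ℝ) (i j : ι) (z : ℂ) :
    BoxP a b i j z = Icc (a i z) (b i z) ×ˢ Icc (a j z) (b j z) := by
  ext p
  simp only [BoxP, mem_ofPred_eq, mem_prod, mem_Icc]
  tauto

lemma enlarge {a b a' b' : ℝ} {U : Set (ℝ × ℝ)} (hU : IsOpen U)
    (h : Icc a b ×ˢ Icc a' b' ⊆ U) (hab : a ≤ b) (hab' : a' ≤ b') :
    ∃ ρ > 0, Icc (a - ρ) (b + ρ) ×ˢ Icc (a' - ρ) (b' + ρ) ⊆ U := by
  obtain ⟨δ, hδ, hδU⟩ := (isCompact_Icc.prod isCompact_Icc).exists_thickening_subset_open hU h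
  refine ⟨δ / 2, by positivity, ?_⟩
  rintro ⟨x, y⟩ ⟨⟨h1, h2⟩, h3, h4⟩
  simp only at h1 h2 h3 h4
  apply hδU
  rw [mem_thickening_iff]
  refine ⟨(max a (min x b), max a' (min y b')), ⟨⟨le_max_left _ _, ?_⟩, le_max_left _ _, ?_⟩, ?_⟩
  · exact max_le hab (min_le_right _ _)
  · exact max_le hab' (min_le_right _ _)
  · have key : ∀ u v t : ℝ, u ≤ v → u - δ / 2 ≤ t → t ≤ v + δ / 2 →
        dist t (max u (min t v)) < δ := by
      intro u v t huv ht1 ht2
      rw [Real.dist_eq]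
      rcases le_total t v with h5 | h5
      · rw [min_eq_left h5]
        rcases le_total u t with h6 | h6
        · rw [max_eq_right h6, sub_self, abs_zero]
          exact hδ
        · rw [max_eq_left h6, abs_of_nonpos (by linarith)]
          linarith
      · rw [min_eq_right h5, max_eq_right huv, abs_of_nonneg (by linarith)]
        linarith
    rw [Prod.dist_eq]
    exact max_lt (key _ _ _ hab h1 h2) (key _ _ _ hab' h3 h4)

variable {ι : Type*} [Fintype ι] {w : Set ℂ} {k : ℕ} {lo hi : ι → Set ℂ → ℝ} {a b : ι → ℂ → ℝ}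

/-- **selection of nodes** -/
theorem node_select (hK : IsCompact K) (hf : Full K) (hwK : IsCompact (K ∩ w))
    (hw : ∀ z ∈ K ∩ w, nd K k z ⊆ w) (hab : ∀ i, ∀ z ∈ K ∩ w, a i z ≤ b i z)
    (h1 : ∀ i, ∀ z ∈ K ∩ w, ∀ n ≥ k, lo i (nd K n z) ≤ a i z ∧ b i z ≤ hi i (nd K n z))
    (h2 : ∀ i, ∀ z ∈ K ∩ w, ∀ ε > 0, ∃ m, ∀ n ≥ m,
      a i z - ε ≤ lo i (nd K n z) ∧ hi i (nd K n z) ≤ b i z + ε) {M : ℝ}
    (hS : ∀ i, ∀ T : Finset ℂ, (∀ z ∈ T, z ∈ K ∩ w) →
      (∀ z ∈ T, ∀ y ∈ T, connectedComponentIn K z = connectedComponentIn K y → z = y) →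
      ∑ z ∈ T, (b i z - a i z) ^ 2 ≤ M)
    (hC : ∀ i j, i ≠ j → volume {p : ℝ × ℝ | ∃ z ∈ K ∩ w, ¬ (a i z < b i z ∧ a j z < b j z) ∧
      p ∈ BoxP a b i j z} = 0) {η : ℝ} (hη : 0 < η) (N : ℕ) :
    ∃ (QQ MM : Finset (Set ℂ)) (c : Set ℂ → ℂ) (ρ : ℝ), 0 < ρ ∧ MM ⊆ QQ ∧
      (∀ Q ∈ QQ, ∃ z ∈ K ∩ w, ∃ n, N ≤ n ∧ k ≤ n ∧ Q = nd K n z) ∧ (∀ Q ∈ QQ, Q ⊆ w) ∧
      (∀ Q ∈ QQ, ∀ Q' ∈ QQ, Q ≠ Q' → Disjoint Q Q') ∧ K ∩ w ⊆ ⋃ Q ∈ QQ, Q ∧
      (∀ Q ∈ MM, c Q ∈ K ∩ w ∧ c Q ∈ Q ∧ ∀ i, hi i Q - lo i Q ≤ b i (c Q) - a i (c Q) + η) ∧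
      (∀ Q ∈ QQ, Q ∉ MM → ∀ i, hi i Q - lo i Q ≤ η) ∧
      ∀ i j, i ≠ j → volume (⋃ Q ∈ {Q | Q ∈ QQ ∧ Q ∉ MM}, BoxN lo hi ρ i j Q) ≤
        ENNReal.ofReal η := by
  classical
  -- components
  set S : Set ℂ := K ∩ w with hSdef
  let C : Type := {c : Set ℂ // ∃ z ∈ S, c = connectedComponentIn K z}
  have hrep : ∀ c : C, ∃ z ∈ S, c.1 = connectedComponentIn K z := fun c => c.2
  choose rep hrepS hrepc using hrep
  let cm : ∀ z : ℂ, z ∈ S → C := fun z hz => ⟨connectedComponentIn K z, z, hz, rfl⟩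
  have hrinj : Function.Injective rep := by
    intro c c' h
    apply Subtype.ext
    rw [hrepc c, hrepc c', h]
  have hrcm : ∀ z (hz : z ∈ S), connectedComponentIn K z = connectedComponentIn K (rep (cm z hz)) :=
    fun z hz => hrepc (cm z hz)
  have hnd : ∀ z (hz : z ∈ S) n, nd K n z = nd K n (rep (cm z hz)) := fun z hz n =>
    nd_congr (hrepS _).1 (hrcm z hz) n
  -- the limits depend on the component only
  have hacm : ∀ i z (hz : z ∈ S), a i z = a i (rep (cm z hz)) ∧ b i z = b i (rep (cm z hz)) := by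
    intro i z hz
    have hr := hrepS (cm z hz)
    refine ⟨le_antisymm ?_ ?_, le_antisymm ?_ ?_⟩
    · refine le_of_forall_pos_le_add fun ε hε => ?_
      obtain ⟨m, hm⟩ := h2 i z hz ε hε
      have h3 := (hm (max m k) (le_max_left _ _)).1
      rw [hnd z hz] at h3
      have h4 := (h1 i _ hr (max m k) (le_max_right _ _)).1
      linarith
    · refine le_of_forall_pos_le_add fun ε hε => ?_
      obtain ⟨m, hm⟩ := h2 i _ hr ε hε
      have h3 := (hm (max m k) (le_max_left _ _)).1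
      rw [← hnd z hz] at h3
      have h4 := (h1 i z hz (max m k) (le_max_right _ _)).1
      linarith
    · refine le_of_forall_pos_le_add fun ε hε => ?_
      obtain ⟨m, hm⟩ := h2 i _ hr ε hε
      have h3 := (hm (max m k) (le_max_left _ _)).2
      rw [← hnd z hz] at h3
      have h4 := (h1 i z hz (max m k) (le_max_right _ _)).2
      linarith
    · refine le_of_forall_pos_le_add fun ε hε => ?_
      obtain ⟨m, hm⟩ := h2 i z hz ε hε
      have h3 := (hm (max m k) (le_max_left _ _)).2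
      rw [hnd z hz] at h3
      have h4 := (h1 i _ hr (max m k) (le_max_right _ _)).2
      linarith
  have hBcm : ∀ i j z (hz : z ∈ S), BoxP a b i j z = BoxP a b i j (rep (cm z hz)) := by
    intro i j z hz
    unfold BoxP
    rw [(hacm i z hz).1, (hacm i z hz).2, (hacm j z hz).1, (hacm j z hz).2]
  -- the sum of the squares
  set f : ι → C → ℝ := fun i c => b i (rep c) - a i (rep c) with hfdef
  have hf0 : ∀ i c, 0 ≤ f i c := fun i c => sub_nonneg.2 (hab i _ (hrepS c))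
  set G : C → ℝ := fun c => ∑ i, f i c ^ 2 with hG
  have hG0 : ∀ c, 0 ≤ G c := fun c => Finset.sum_nonneg fun i _ => sq_nonneg _
  have hGs : Summable G := by
    refine summable_of_sum_le hG0 (c := (Fintype.card ι : ℝ) * M) fun u => ?_
    rw [hG]
    simp only
    rw [Finset.sum_comm]
    calc ∑ i, ∑ c ∈ u, f i c ^ 2 ≤ ∑ _i : ι, M := by
          refine Finset.sum_le_sum fun i _ => ?_
          have h3 := hS i (u.image rep) (fun z hz => by
            obtain ⟨c, -, rfl⟩ := Finset.mem_image.1 hz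
            exact hrepS c) (fun z hz y hy hzy => by
            obtain ⟨c, -, rfl⟩ := Finset.mem_image.1 hz
            obtain ⟨c', -, rfl⟩ := Finset.mem_image.1 hy
            have : c = c' := by
              apply Subtype.ext
              rw [hrepc c, hrepc c', hzy]
            rw [this])
          rwa [Finset.sum_image (fun x _ y _ h => hrinj h)] at h3
      _ = (Fintype.card ι : ℝ) * M := by
          rw [Finset.sum_const, Finset.card_univ, nsmul_eq_mul]
  have hfG : ∀ i c, f i c ^ 2 ≤ G c := fun i c =>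
    Finset.single_le_sum (f := fun i => f i c ^ 2) (fun _ _ => sq_nonneg _) (Finset.mem_univ i)
  set ε : ℝ := min (η / 2) ((η / 2) ^ 2) with hε
  have hε0 : 0 < ε := by positivity
  obtain ⟨u₀, hu₀⟩ := summable_iff_vanishing_norm.1 hGs ε hε0
  have hu₁ : ∀ u : Finset C, Disjoint u u₀ → ∑ c ∈ u, G c ≤ ε := by
    intro u hu
    have h3 := hu₀ u hu
    rw [Real.norm_eq_abs] at h3
    exact (le_abs_self _).trans h3.le
  have hsmall : ∀ c, c ∉ u₀ → ∀ i, f i c ≤ η / 2 := by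
    intro c hc i
    have h3 := hu₁ {c} (Finset.disjoint_singleton_left.2 hc)
    rw [Finset.sum_singleton] at h3
    have h4 : f i c ^ 2 ≤ (η / 2) ^ 2 := (hfG i c).trans (h3.trans (min_le_right _ _))
    exact le_of_sq_le_sq h4 (by positivity)
  -- the open sets
  have hZ : ∀ i j, ∃ U : Set (ℝ × ℝ), IsOpen U ∧ (i ≠ j → (∀ c, c ∉ u₀ →
      BoxP a b i j (rep c) ⊆ U) ∧ volume U ≤ ENNReal.ofReal η) := by
    intro i j
    by_cases hij : i = j
    · exact ⟨univ, isOpen_univ, fun h => absurd hij h⟩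
    set Z₀ : Set (ℝ × ℝ) := {p : ℝ × ℝ | ∃ z ∈ K ∩ w, ¬ (a i z < b i z ∧ a j z < b j z) ∧
      p ∈ BoxP a b i j z} with hZ₀
    set D : Set C := {c | c ∉ u₀ ∧ G c ≠ 0} with hD
    have hDc : D.Countable := hGs.countable_support.mono fun c hc => hc.2
    set Z₁ : Set (ℝ × ℝ) := ⋃ c ∈ D, BoxP a b i j (rep c) with hZ₁
    have hZ₁v : volume Z₁ ≤ ENNReal.ofReal ε := by
      refine (measure_biUnion_le _ hDc _).trans ?_
      rw [ENNReal.tsum_eq_iSup_sum]
      refine iSup_le fun u => ?_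
      have h3 : ∀ c : D, volume (BoxP a b i j (rep c.1)) ≤ ENNReal.ofReal (G c.1) := by
        intro c
        rw [BoxP_eq, Measure.volume_eq_prod, Measure.prod_prod, Real.volume_Icc, Real.volume_Icc,
          ← ENNReal.ofReal_mul (hf0 i c.1)]
        apply ENNReal.ofReal_le_ofReal
        have h4 : f i c.1 ^ 2 + f j c.1 ^ 2 ≤ G c.1 := by
          have h5 : ∑ l ∈ ({i, j} : Finset ι), f l c.1 ^ 2 ≤ G c.1 :=
            Finset.sum_le_sum_of_subset_of_nonneg (Finset.subset_univ _)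
              fun _ _ _ => sq_nonneg _
          rwa [Finset.sum_pair hij] at h5
        have h6 : f i c.1 * f j c.1 ≤ G c.1 := by
          nlinarith [sq_nonneg (f i c.1 - f j c.1), sq_nonneg (f i c.1), sq_nonneg (f j c.1)]
        exact h6
      calc ∑ c ∈ u, volume (BoxP a b i j (rep c.1)) ≤ ∑ c ∈ u, ENNReal.ofReal (G c.1) :=
            Finset.sum_le_sum fun c _ => h3 c
        _ = ENNReal.ofReal (∑ c ∈ u, G c.1) :=
            (ENNReal.ofReal_sum_of_nonneg fun c _ => hG0 _).symm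
        _ ≤ ENNReal.ofReal ε := by
            apply ENNReal.ofReal_le_ofReal
            have h4 := hu₁ (u.map (Function.Embedding.subtype _)) (by
              rw [Finset.disjoint_left]
              intro c hc
              obtain ⟨c', -, rfl⟩ := Finset.mem_map.1 hc
              exact c'.2.1)
            rwa [Finset.sum_map] at h4
    have hv : volume (Z₀ ∪ Z₁) ≤ ENNReal.ofReal ε := by
      refine (measure_union_le _ _).trans ?_
      rw [hC i j hij, zero_add]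
      exact hZ₁v
    obtain ⟨U, hU1, hU2, hU3⟩ := (Z₀ ∪ Z₁).exists_isOpen_le_add volume
      (ε := ENNReal.ofReal ε) (by rw [ne_eq, ENNReal.ofReal_eq_zero, not_le]; exact hε0)
    refine ⟨U, hU2, fun _ => ⟨fun c hc => ?_, ?_⟩⟩
    · refine Subset.trans ?_ hU1
      by_cases hm : a i (rep c) < b i (rep c) ∧ a j (rep c) < b j (rep c)
      · have hGc : G c ≠ 0 := by
          have h3 : 0 < f i c ^ 2 := by
            have : 0 < f i c := sub_pos.2 hm.1
            positivity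
          exact (h3.trans_le (hfG i c)).ne'
        refine subset_union_of_subset_right ?_ _
        exact subset_biUnion_of_mem (u := fun c => BoxP a b i j (rep c)) (show c ∈ D from ⟨hc, hGc⟩)
      · exact fun p hp => Or.inl ⟨rep c, hrepS c, hm, hp⟩
    · calc volume U ≤ volume (Z₀ ∪ Z₁) + ENNReal.ofReal ε := hU3
        _ ≤ ENNReal.ofReal ε + ENNReal.ofReal ε := by gcongr
        _ = ENNReal.ofReal (ε + ε) := (ENNReal.ofReal_add hε0.le hε0.le).symm
        _ ≤ ENNReal.ofReal η := by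
            apply ENNReal.ofReal_le_ofReal
            have := min_le_left (η / 2) ((η / 2) ^ 2)
            linarith
  choose U hUo hU using hZ
  -- separation of components by nodes
  have hsep : ∀ c t : C, t ≠ c → ∃ m, ∀ n ≥ m, rep t ∉ nd K n (rep c) := by
    intro c t htc
    by_contra hcon
    push Not at hcon
    have h3 : rep t ∈ ⋂ n, nd K n (rep c) := by
      refine mem_iInter.2 fun n => ?_
      obtain ⟨m, hm, h4⟩ := hcon n
      exact nd_anti hm h4
    rw [iInter_nd hK hf (hrepS c).1] at h3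
    apply htc
    apply Subtype.ext
    rw [hrepc t, hrepc c]
    exact (connectedComponentIn_eq h3).symm
  -- choice of the level
  have hlev : ∀ c : C, ∃ (n : ℕ) (ρ : ℝ), 0 < ρ ∧ N ≤ n ∧ k ≤ n ∧
      (∀ t ∈ u₀, t ≠ c → rep t ∉ nd K n (rep c)) ∧
      (∀ i, hi i (nd K n (rep c)) - lo i (nd K n (rep c)) ≤ f i c + η / 2) ∧
      (c ∉ u₀ → ∀ i j, i ≠ j → BoxN lo hi ρ i j (nd K n (rep c)) ⊆ U i j) := by
    intro c
    have e1 : ∀ᶠ n in atTop, ∀ t ∈ u₀, t ≠ c → rep t ∉ nd K n (rep c) := by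
      rw [Filter.eventually_all_finset]
      intro t _
      by_cases htc : t = c
      · exact Eventually.of_forall fun n h => absurd htc h
      · obtain ⟨m, hm⟩ := hsep c t htc
        filter_upwards [eventually_ge_atTop m] with n hn _ using hm n hn
    have hρ : ∃ ρ > 0, c ∉ u₀ → ∀ i j, i ≠ j →
        Icc (a i (rep c) - ρ) (b i (rep c) + ρ) ×ˢ Icc (a j (rep c) - ρ) (b j (rep c) + ρ) ⊆
          U i j := by
      by_cases hc : c ∈ u₀
      · exact ⟨1, one_pos, fun h => absurd hc h⟩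
      have h3 : ∀ p : ι × ι, ∃ ρ > 0, p.1 ≠ p.2 →
          Icc (a p.1 (rep c) - ρ) (b p.1 (rep c) + ρ) ×ˢ
            Icc (a p.2 (rep c) - ρ) (b p.2 (rep c) + ρ) ⊆ U p.1 p.2 := by
        rintro ⟨i, j⟩
        by_cases hij : i = j
        · exact ⟨1, one_pos, fun h => absurd hij h⟩
        have h4 := (hU i j hij).1 c hc
        rw [BoxP_eq] at h4
        obtain ⟨ρ, hρ, h5⟩ := enlarge (hUo i j) h4 (hab i _ (hrepS c)) (hab j _ (hrepS c))
        exact ⟨ρ, hρ, fun _ => h5⟩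
      choose r hr0 hr using h3
      have h4 : ∃ ρ > 0, ∀ p : ι × ι, ρ ≤ r p := by
        by_cases hne : Nonempty (ι × ι)
        · obtain ⟨p, hp⟩ := Finite.exists_min r
          exact ⟨r p, hr0 p, hp⟩
        · exact ⟨1, one_pos, fun p => absurd ⟨p⟩ hne⟩
      obtain ⟨ρ, hρ, h5⟩ := h4
      refine ⟨ρ, hρ, fun _ i j hij => Subset.trans ?_ (hr (i, j) hij)⟩
      have h6 := h5 (i, j)
      apply Set.prod_mono <;> apply Icc_subset_Icc <;> linarith
    obtain ⟨ρ, hρ0, hρ⟩ := hρ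
    have e2 : ∀ᶠ n in atTop, ∀ i, a i (rep c) - min (ρ / 2) (η / 4) ≤ lo i (nd K n (rep c)) ∧
        hi i (nd K n (rep c)) ≤ b i (rep c) + min (ρ / 2) (η / 4) := by
      rw [Filter.eventually_all]
      intro i
      obtain ⟨m, hm⟩ := h2 i _ (hrepS c) (min (ρ / 2) (η / 4)) (by positivity)
      filter_upwards [eventually_ge_atTop m] with n hn using hm n hn
    obtain ⟨n, hn1, hn2, hn3, hn4⟩ := (e1.and (e2.and ((eventually_ge_atTop N).and
      (eventually_ge_atTop k)))).exists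
    have hm1 := min_le_left (ρ / 2) (η / 4)
    have hm2 := min_le_right (ρ / 2) (η / 4)
    refine ⟨n, ρ / 2, by positivity, hn3, hn4, hn1, fun i => ?_, fun hc i j hij => ?_⟩
    · have h3 := hn2 i
      simp only [hfdef]
      linarith [h3.1, h3.2]
    · refine Subset.trans ?_ (hρ hc i j hij)
      rintro ⟨x, y⟩ ⟨h3, h4, h5, h6⟩
      simp only at h3 h4 h5 h6
      have h7 := hn2 i
      have h8 := hn2 j
      refine ⟨⟨?_, ?_⟩, ?_, ?_⟩ <;> simp only <;> linarith [h7.1, h7.2, h8.1, h8.2]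
  choose n r hr0 hn1 hn2 hn3 hn4 hn5 using hlev
  set Nd : C → Set ℂ := fun c => nd K (n c) (rep c) with hNd
  have hrepN : ∀ c, rep c ∈ Nd c := fun c => mem_nd (hrepS c).1 _
  -- finite cover
  obtain ⟨t, htc⟩ : ∃ t : Finset ℂ, ∃ ht : ∀ z ∈ t, z ∈ S, S ⊆ ⋃ z : t, Nd (cm z.1 (ht z.1 z.2)) := by
    have h3 := hwK.elim_nhds_subcover' (U := fun z hz => Nd (cm z hz)) (fun z hz => by
      have h4 : closedBall z (lr (n (cm z hz))) ⊆ Nd (cm z hz) :=
        closedBall_subset_nd hz.1 (by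
          change z ∈ nd K (n (cm z hz)) (rep (cm z hz))
          rw [← hnd z hz]
          exact mem_nd hz.1 _)
      exact mem_of_superset (closedBall_mem_nhds z (lr_pos _)) h4)
    obtain ⟨t, ht⟩ := h3
    refine ⟨t.image Subtype.val, fun z hz => ?_, fun y hy => ?_⟩
    · obtain ⟨z', -, rfl⟩ := Finset.mem_image.1 hz
      exact z'.2
    · obtain ⟨z, hz, hyz⟩ := mem_iUnion₂.1 (ht hy)
      exact mem_iUnion.2 ⟨⟨z.1, Finset.mem_image_of_mem _ hz⟩, hyz⟩
  obtain ⟨htS, htc⟩ := htc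
  set v : Finset C := u₀ ∪ t.attach.image (fun z => cm z.1 (htS z.1 z.2)) with hv
  set FF : Finset (Set ℂ) := v.image Nd with hFF
  have hnest : ∀ c c' : C, ¬ Disjoint (Nd c) (Nd c') → Nd c ⊆ Nd c' ∨ Nd c' ⊆ Nd c := by
    intro c c' h
    rcases le_total (n c) (n c') with h3 | h3
    · exact Or.inr (nd_nested h3 h)
    · exact Or.inl (nd_nested h3 fun h4 => h h4.symm)
  set QQ : Finset (Set ℂ) := FF.filter fun Q => ∀ Q' ∈ FF, Q ⊆ Q' → Q' = Q with hQQ
  set MM : Finset (Set ℂ) := u₀.image Nd with hMM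
  have hmax : ∀ Q ∈ FF, ∃ Q' ∈ QQ, Q ⊆ Q' := by
    intro Q hQ
    obtain ⟨Q', h3, h4⟩ := FF.exists_le_maximal hQ
    refine ⟨Q', Finset.mem_filter.2 ⟨h4.1, fun Q'' h5 h6 => ?_⟩, h3⟩
    exact Subset.antisymm (h4.2 h5 h6) h6
  have hMQ : MM ⊆ QQ := by
    intro Q hQ
    obtain ⟨c, hc, rfl⟩ := Finset.mem_image.1 hQ
    refine Finset.mem_filter.2 ⟨Finset.mem_image_of_mem _ (Finset.mem_union_left _ hc), ?_⟩
    intro Q' hQ' h3
    obtain ⟨c', -, rfl⟩ := Finset.mem_image.1 hQ'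
    by_cases h4 : c = c'
    · rw [h4]
    · exact absurd (h3 (hrepN c)) (hn3 c' c hc h4)
  have hex : ∃ ρ > 0, ∀ c ∈ v, ρ ≤ r c := by
    by_cases hne : v.Nonempty
    · obtain ⟨c, -, hc⟩ := v.exists_min_image r hne
      exact ⟨r c, hr0 c, hc⟩
    · refine ⟨1, one_pos, fun c hc => absurd ⟨c, hc⟩ hne⟩
  obtain ⟨ρ, hρ0, hρ⟩ := hex
  refine ⟨QQ, MM, fun Q => if h : ∃ c ∈ u₀, Nd c = Q then rep h.choose else 0, ρ, hρ0, hMQ,
    ?_, ?_, ?_, ?_, ?_, ?_, ?_⟩
  · intro Q hQ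
    obtain ⟨c, hc, rfl⟩ := Finset.mem_image.1 (Finset.mem_filter.1 hQ).1
    exact ⟨rep c, hrepS c, n c, hn1 c, hn2 c, rfl⟩
  · intro Q hQ
    obtain ⟨c, hc, rfl⟩ := Finset.mem_image.1 (Finset.mem_filter.1 hQ).1
    exact (nd_anti (hn2 c)).trans (hw _ (hrepS c))
  · intro Q hQ Q' hQ' hne
    obtain ⟨h3, h4⟩ := Finset.mem_filter.1 hQ
    obtain ⟨h5, h6⟩ := Finset.mem_filter.1 hQ'
    by_contra hcon
    obtain ⟨c, hc, rfl⟩ := Finset.mem_image.1 h3
    obtain ⟨c', hc', rfl⟩ := Finset.mem_image.1 h5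
    rcases hnest c c' hcon with h7 | h7
    · exact hne (h4 _ h5 h7).symm
    · exact hne (h6 _ h3 h7)
  · intro y hy
    obtain ⟨z, hz⟩ := mem_iUnion.1 (htc hy)
    obtain ⟨Q', h3, h4⟩ := hmax (Nd (cm z.1 (htS z.1 z.2))) (Finset.mem_image_of_mem _
      (Finset.mem_union_right _ (Finset.mem_image.2 ⟨z, Finset.mem_attach _ _, rfl⟩)))
    exact mem_iUnion₂.2 ⟨Q', h3, h4 hz⟩
  · intro Q hQ
    obtain ⟨c, hc, hcQ⟩ := Finset.mem_image.1 hQ
    have hex : ∃ c ∈ u₀, Nd c = Q := ⟨c, hc, hcQ⟩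
    simp only [dif_pos hex]
    obtain ⟨h3, h4⟩ := hex.choose_spec
    refine ⟨hrepS _, ?_, fun i => ?_⟩
    · have h7 := hrepN hex.choose
      rwa [h4] at h7
    · have h5 := hn4 hex.choose i
      have h6 : nd K (n hex.choose) (rep hex.choose) = Q := h4
      rw [h6] at h5
      simp only [hfdef] at h5
      linarith
  · intro Q hQ hQM i
    obtain ⟨c, hc, rfl⟩ := Finset.mem_image.1 (Finset.mem_filter.1 hQ).1
    have hcu : c ∉ u₀ := fun h => hQM (Finset.mem_image_of_mem _ h)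
    have h5 := hn4 c i
    have h6 := hsmall c hcu i
    change hi i (nd K (n c) (rep c)) - lo i (nd K (n c) (rep c)) ≤ η
    linarith
  · intro i j hij
    refine le_trans (measure_mono ?_) (hU i j hij).2
    refine iUnion₂_subset fun Q hQ => ?_
    obtain ⟨hQ1, hQM⟩ := hQ
    obtain ⟨c, hc, rfl⟩ := Finset.mem_image.1 (Finset.mem_filter.1 hQ1).1
    have hcu : c ∉ u₀ := fun h => hQM (Finset.mem_image_of_mem _ h)
    refine Subset.trans ?_ (hn5 c hcu i j hij)
    rintro ⟨x, y⟩ ⟨h3, h4, h5, h6⟩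
    simp only at h3 h4 h5 h6
    have h7 := hρ c hc
    change lo i (nd K (n c) (rep c)) - ρ ≤ x at h3
    change x ≤ hi i (nd K (n c) (rep c)) + ρ at h4
    change lo j (nd K (n c) (rep c)) - ρ ≤ y at h5
    change y ≤ hi j (nd K (n c) (rep c)) + ρ at h6
    refine ⟨?_, ?_, ?_, ?_⟩ <;> simp only <;> linarith

end Vale.Agent.P116.KB.H984
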