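import Mathlib
import Vale.Agent.P116.KB.H984.Sel

/-!
# P116, block [7], row (E): finite families of nodes, after the offsets

`node_family`: general form (good nodes / marked nodes). `nod`: the form used in [7]: the offsets
`s` are given, there are finitely many bad ends; one node for each bad end, all the other nodes have
small enlarged boxes which are hit by the levels of at most one coordinate.
-/

open Set Filter Topology Metric MeasureTheory
open scoped ENNReal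

namespace Vale.Agent.P116.KB.H984

open H906

variable {K : Set ℂ}

/-- **general form** -/
theorem node_family (hK : IsCompact K) (hf : Full K) {w : Set ℂ} {k : ℕ}
    (hwK : IsCompact (K ∩ w)) (hw : ∀ z ∈ K ∩ w, nd K k z ⊆ w) (bd : Finset ℂ)
    (hbd : ∀ t ∈ bd, t ∈ K ∩ w) (Good : ℝ → Set ℂ → Prop)
    (hanti : ∀ ρ ρ' Q, ρ' ≤ ρ → Good ρ Q → Good ρ' Q)
    (hG : ∀ z ∈ K ∩ w, (∀ t ∈ bd, connectedComponentIn K t ≠ connectedComponentIn K z) →
      ∃ ρ > 0, ∃ m, ∀ n ≥ m, Good ρ (nd K n z))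
    (Bad : ℂ → Set ℂ → Prop) (hB : ∀ t ∈ bd, ∃ m, ∀ n ≥ m, Bad t (nd K n t)) (N : ℕ) :
    ∃ (QQ MM : Finset (Set ℂ)) (c : Set ℂ → ℂ) (ρ : ℝ), 0 < ρ ∧ MM ⊆ QQ ∧
      (∀ Q ∈ QQ, ∃ z ∈ K ∩ w, ∃ n, N ≤ n ∧ k ≤ n ∧ Q = nd K n z) ∧ (∀ Q ∈ QQ, Q ⊆ w) ∧
      (∀ Q ∈ QQ, ∀ Q' ∈ QQ, Q ≠ Q' → Disjoint Q Q') ∧ K ∩ w ⊆ ⋃ Q ∈ QQ, Q ∧
      (∀ Q ∈ MM, c Q ∈ bd ∧ c Q ∈ Q ∧ Bad (c Q) Q) ∧
      (∀ t ∈ bd, ∃ Q ∈ MM, t ∈ Q) ∧
      ∀ Q ∈ QQ, Q ∉ MM → Good ρ Q := by
  classical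
  set S : Set ℂ := K ∩ w with hSdef
  -- separation of components by nodes
  have hsep : ∀ z ∈ S, ∀ t ∈ bd, connectedComponentIn K t ≠ connectedComponentIn K z →
      ∃ m, ∀ n ≥ m, t ∉ nd K n z := by
    intro z hz t ht hne
    by_contra hcon
    push Not at hcon
    have h3 : t ∈ ⋂ n, nd K n z := by
      refine mem_iInter.2 fun n => ?_
      obtain ⟨m, hm, h4⟩ := hcon n
      exact nd_anti hm h4
    rw [iInter_nd hK hf hz.1] at h3
    exact hne (connectedComponentIn_eq h3).symm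
  -- levels of the bad points: one level for each, chosen for the component
  have hlevB : ∀ t : ℂ, ∃ n, t ∈ bd → N ≤ n ∧ k ≤ n ∧ Bad t (nd K n t) ∧
      ∀ t' ∈ bd, connectedComponentIn K t' ≠ connectedComponentIn K t → t' ∉ nd K n t := by
    intro t
    by_cases ht : t ∈ bd
    swap
    · exact ⟨0, fun h => absurd h ht⟩
    have e1 : ∀ᶠ n in atTop, ∀ t' ∈ bd, connectedComponentIn K t' ≠ connectedComponentIn K t →
        t' ∉ nd K n t := by
      rw [Filter.eventually_all_finset]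
      intro t' ht'
      by_cases h : connectedComponentIn K t' = connectedComponentIn K t
      · exact Eventually.of_forall fun n h' => absurd h h'
      · obtain ⟨m, hm⟩ := hsep t (hbd t ht) t' ht' h
        filter_upwards [eventually_ge_atTop m] with n hn _ using hm n hn
    obtain ⟨m, hm⟩ := hB t ht
    obtain ⟨n, h1, h2, h3, h4⟩ := (e1.and ((eventually_ge_atTop m).and
      ((eventually_ge_atTop N).and (eventually_ge_atTop k)))).exists
    exact ⟨n, fun _ => ⟨h3, h4, hm n h2, h1⟩⟩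
  choose nB hnB using hlevB
  -- the other points
  have hlevG : ∀ z : ℂ, ∃ (n : ℕ) (ρ : ℝ), 0 < ρ ∧ (z ∈ S → (∀ t ∈ bd, connectedComponentIn K t ≠
      connectedComponentIn K z) → N ≤ n ∧ k ≤ n ∧ Good ρ (nd K n z) ∧ ∀ t ∈ bd, t ∉ nd K n z) := by
    intro z
    by_cases hz : z ∈ S
    swap
    · exact ⟨0, 1, one_pos, fun h => absurd h hz⟩
    by_cases hzt : ∀ t ∈ bd, connectedComponentIn K t ≠ connectedComponentIn K z
    swap
    · exact ⟨0, 1, one_pos, fun _ h => absurd h hzt⟩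
    have e1 : ∀ᶠ n in atTop, ∀ t ∈ bd, t ∉ nd K n z := by
      rw [Filter.eventually_all_finset]
      intro t ht
      obtain ⟨m, hm⟩ := hsep z hz t ht (hzt t ht)
      filter_upwards [eventually_ge_atTop m] with n hn using hm n hn
    obtain ⟨ρ, hρ, m, hm⟩ := hG z hz hzt
    obtain ⟨n, h1, h2, h3, h4⟩ := (e1.and ((eventually_ge_atTop m).and
      ((eventually_ge_atTop N).and (eventually_ge_atTop k)))).exists
    exact ⟨n, ρ, hρ, fun _ _ => ⟨h3, h4, hm n h2, h1⟩⟩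
  choose nG r hr0 hnG using hlevG
  -- the node of a point
  obtain ⟨F, hF⟩ : ∃ F : Set ℂ → Set ℂ, ∀ C : Set ℂ, (∃ t ∈ bd, connectedComponentIn K t = C) →
      ∃ t ∈ bd, connectedComponentIn K t = C ∧ F C = nd K (nB t) t := by
    have : ∀ C : Set ℂ, ∃ A : Set ℂ, (∃ t ∈ bd, connectedComponentIn K t = C) →
        ∃ t ∈ bd, connectedComponentIn K t = C ∧ A = nd K (nB t) t := by
      intro C
      by_cases h : ∃ t ∈ bd, connectedComponentIn K t = C
      · obtain ⟨t, ht, h1⟩ := h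
        exact ⟨_, fun _ => ⟨t, ht, h1, rfl⟩⟩
      · exact ⟨∅, fun h' => absurd h' h⟩
    choose F hF using this
    exact ⟨F, hF⟩
  set Nd : ℂ → Set ℂ := fun z => if ∃ t ∈ bd, connectedComponentIn K t =
    connectedComponentIn K z then F (connectedComponentIn K z) else nd K (nG z) z with hNd
  have hNdc : ∀ z y, connectedComponentIn K z = connectedComponentIn K y →
      (∃ t ∈ bd, connectedComponentIn K t = connectedComponentIn K z) → Nd z = Nd y := by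
    intro z y hzy h
    simp only [hNd]
    rw [if_pos h, if_pos (hzy ▸ h), hzy]
  have hNdform : ∀ z ∈ S, (∃ t ∈ bd, connectedComponentIn K t = connectedComponentIn K z ∧
      Nd z = nd K (nB t) t) ∨ ((∀ t ∈ bd, connectedComponentIn K t ≠ connectedComponentIn K z) ∧
        Nd z = nd K (nG z) z) := by
    intro z hz
    by_cases h : ∃ t ∈ bd, connectedComponentIn K t = connectedComponentIn K z
    · left
      obtain ⟨t, ht, h1, h3⟩ := hF _ h
      refine ⟨t, ht, h1, ?_⟩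
      simp only [hNd]
      rw [if_pos h, h3]
    · right
      refine ⟨fun t ht h' => h ⟨t, ht, h'⟩, ?_⟩
      simp only [hNd]
      rw [if_neg h]
  have hNdmem : ∀ z ∈ S, Nd z ∈ 𝓝 z ∧ z ∈ Nd z := by
    intro z hz
    rcases hNdform z hz with ⟨t, ht, h1, h2⟩ | ⟨-, h2⟩
    · have h3 : z ∈ nd K (nB t) t := by
        rw [nd_congr (z := t) hz.1 h1]
        exact mem_nd hz.1 _
      rw [h2]
      exact ⟨mem_of_superset (closedBall_mem_nhds z (lr_pos _)) (closedBall_subset_nd hz.1 h3), h3⟩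
    · rw [h2]
      exact ⟨mem_of_superset (closedBall_mem_nhds z (lr_pos _))
        (closedBall_subset_nd hz.1 (mem_nd hz.1 _)), mem_nd hz.1 _⟩
  have hNdlev : ∀ z ∈ S, ∃ y ∈ S, ∃ n, N ≤ n ∧ k ≤ n ∧ Nd z = nd K n y := by
    intro z hz
    rcases hNdform z hz with ⟨t, ht, h1, h2⟩ | ⟨h1, h2⟩
    · exact ⟨t, hbd t ht, nB t, (hnB t ht).1, (hnB t ht).2.1, h2⟩
    · exact ⟨z, hz, nG z, (hnG z hz h1).1, (hnG z hz h1).2.1, h2⟩
  obtain ⟨t₀, ht₀S, ht₀⟩ : ∃ t : Finset ℂ, (∀ z ∈ t, z ∈ S) ∧ S ⊆ ⋃ z ∈ t, Nd z := by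
    obtain ⟨t, ht1, ht2⟩ := hwK.elim_nhds_subcover Nd fun z hz => (hNdmem z hz).1
    exact ⟨t, ht1, ht2⟩
  set v : Finset ℂ := bd ∪ t₀ with hv
  have hvS : ∀ z ∈ v, z ∈ S := by
    intro z hz
    rcases Finset.mem_union.1 hz with h | h
    · exact hbd z h
    · exact ht₀S z h
  set FF : Finset (Set ℂ) := v.image Nd with hFF
  have hnest : ∀ z ∈ S, ∀ y ∈ S, ¬ Disjoint (Nd z) (Nd y) → Nd z ⊆ Nd y ∨ Nd y ⊆ Nd z := by
    intro z hz y hy h
    obtain ⟨z', -, n, -, -, h1⟩ := hNdlev z hz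
    obtain ⟨y', -, m, -, -, h2⟩ := hNdlev y hy
    rw [h1, h2] at h ⊢
    rcases le_total n m with h3 | h3
    · exact Or.inr (nd_nested h3 h)
    · exact Or.inl (nd_nested h3 fun h4 => h h4.symm)
  set QQ : Finset (Set ℂ) := FF.filter fun Q => ∀ Q' ∈ FF, Q ⊆ Q' → Q' = Q with hQQ
  set MM : Finset (Set ℂ) := bd.image Nd with hMM
  have hmax : ∀ Q ∈ FF, ∃ Q' ∈ QQ, Q ⊆ Q' := by
    intro Q hQ
    obtain ⟨Q', h3, h4⟩ := FF.exists_le_maximal hQ
    refine ⟨Q', Finset.mem_filter.2 ⟨h4.1, fun Q'' h5 h6 => ?_⟩, h3⟩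
    exact Subset.antisymm (h4.2 h5 h6) h6
  have hMQ : MM ⊆ QQ := by
    intro Q hQ
    obtain ⟨t, ht, rfl⟩ := Finset.mem_image.1 hQ
    refine Finset.mem_filter.2 ⟨Finset.mem_image_of_mem _ (Finset.mem_union_left _ ht), ?_⟩
    intro Q' hQ' h3
    obtain ⟨z, hz, rfl⟩ := Finset.mem_image.1 hQ'
    have htz : t ∈ Nd z := h3 (hNdmem t (hbd t ht)).2
    rcases hNdform z (hvS z hz) with ⟨t', ht', h4, h5⟩ | ⟨h4, h5⟩
    · -- `z` is equivalent to the bad point `t'`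
      have h6 : connectedComponentIn K t = connectedComponentIn K t' := by
        by_contra h7
        rw [h5] at htz
        exact (hnB t' ht').2.2.2 t ht h7 htz
      exact hNdc z t (h4.symm.trans h6.symm) ⟨t', ht', h4⟩
    · rw [h5] at htz
      exact absurd htz ((hnG z (hvS z hz) h4).2.2.2 t ht)
  have hex : ∃ ρ > 0, ∀ z ∈ v, ρ ≤ r z := by
    by_cases hne : v.Nonempty
    · obtain ⟨z, -, hz⟩ := v.exists_min_image r hne
      exact ⟨r z, hr0 z, hz⟩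
    · exact ⟨1, one_pos, fun z hz => absurd ⟨z, hz⟩ hne⟩
  obtain ⟨ρ, hρ0, hρ⟩ := hex
  have hMc : ∀ Q : Set ℂ, ∃ c : ℂ, Q ∈ MM → c ∈ bd ∧ c ∈ Q ∧ Bad c Q := by
    intro Q
    by_cases hQ : Q ∈ MM
    swap
    · exact ⟨0, fun h => absurd h hQ⟩
    obtain ⟨t, ht, rfl⟩ := Finset.mem_image.1 hQ
    rcases hNdform t (hbd t ht) with ⟨t', ht', h4, h5⟩ | ⟨h4, -⟩
    · refine ⟨t', fun _ => ⟨ht', ?_, ?_⟩⟩
      · rw [h5]
        exact mem_nd (hbd t' ht').1 _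
      · rw [h5]
        exact (hnB t' ht').2.2.1
    · exact absurd rfl (h4 t ht)
  choose c hc using hMc
  refine ⟨QQ, MM, c, ρ, hρ0, hMQ, ?_, ?_, ?_, ?_, fun Q hQ => hc Q hQ, ?_, ?_⟩
  · intro Q hQ
    obtain ⟨z, hz, rfl⟩ := Finset.mem_image.1 (Finset.mem_filter.1 hQ).1
    exact hNdlev z (hvS z hz)
  · intro Q hQ
    obtain ⟨z, hz, rfl⟩ := Finset.mem_image.1 (Finset.mem_filter.1 hQ).1
    obtain ⟨y, hy, n, -, hn, h⟩ := hNdlev z (hvS z hz)
    rw [h]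
    exact (nd_anti hn).trans (hw _ hy)
  · intro Q hQ Q' hQ' hne
    obtain ⟨h3, h4⟩ := Finset.mem_filter.1 hQ
    obtain ⟨h5, h6⟩ := Finset.mem_filter.1 hQ'
    by_contra hcon
    obtain ⟨z, hz, rfl⟩ := Finset.mem_image.1 h3
    obtain ⟨y, hy, rfl⟩ := Finset.mem_image.1 h5
    rcases hnest z (hvS z hz) y (hvS y hy) hcon with h7 | h7
    · exact hne (h4 _ h5 h7).symm
    · exact hne (h6 _ h3 h7)
  · intro y hy
    obtain ⟨z, hz, hyz⟩ := mem_iUnion₂.1 (ht₀ hy)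
    obtain ⟨Q', h3, h4⟩ := hmax (Nd z) (Finset.mem_image_of_mem _ (Finset.mem_union_right _ hz))
    exact mem_iUnion₂.2 ⟨Q', h3, h4 hyz⟩
  · intro t ht
    exact ⟨Nd t, Finset.mem_image_of_mem _ ht, (hNdmem t (hbd t ht)).2⟩
  · intro Q hQ hQM
    obtain ⟨z, hz, rfl⟩ := Finset.mem_image.1 (Finset.mem_filter.1 hQ).1
    rcases hNdform z (hvS z hz) with ⟨t', ht', h4, h5⟩ | ⟨h4, h5⟩
    · exfalso
      apply hQM
      exact Finset.mem_image.2 ⟨t', ht', (hNdc z t' h4.symm ⟨t', ht', h4⟩).symm⟩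
    · rw [h5]
      exact hanti _ _ _ (hρ z hz) (hnG z (hvS z hz) h4).2.2.1

/-! ### the form used in [7] -/

/-- closed hit (as in `KB/Sel841.lean`) -/
def hitc (h s lo hi : ℝ) : Prop := ∃ k : ℤ, lo ≤ s + k * h ∧ s + k * h ≤ hi

lemma hitc_mono {h s lo hi lo' hi' : ℝ} (h1 : lo' ≤ lo) (h2 : hi ≤ hi') (H : hitc h s lo hi) :
    hitc h s lo' hi' := by
  obtain ⟨k, h3, h4⟩ := H
  exact ⟨k, h1.trans h3, h4.trans h2⟩

/-- an interval without a level can be enlarged -/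
lemma hitc_enlarge {h s lo hi : ℝ} (hh : 0 < h) (H : ¬ hitc h s lo hi) :
    ∃ ρ > 0, ¬ hitc h s (lo - ρ) (hi + ρ) := by
  have hcl : IsClosed (range fun k : ℤ => s + k * h) := by
    have h1 : Topology.IsClosedEmbedding (fun k : ℤ => (k : ℝ)) := Int.isClosedEmbedding_coe_real
    have h2 : (range fun k : ℤ => s + k * h) = (fun x : ℝ => (x - s) / h) ⁻¹'
        (range fun k : ℤ => (k : ℝ)) := by
      ext x
      simp only [mem_range, mem_preimage]
      constructor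
      · rintro ⟨k, rfl⟩
        exact ⟨k, by field_simp; ring⟩
      · rintro ⟨k, hk⟩
        refine ⟨k, ?_⟩
        rw [hk]
        field_simp
        ring
    rw [h2]
    exact h1.isClosed_range.preimage (by fun_prop)
  by_cases hle : lo ≤ hi
  · have hdis : Icc lo hi ⊆ (range fun k : ℤ => s + k * h)ᶜ := by
      rintro x ⟨h1, h2⟩ ⟨k, rfl⟩
      exact H ⟨k, h1, h2⟩
    obtain ⟨δ, hδ, hδU⟩ := isCompact_Icc.exists_thickening_subset_open hcl.isOpen_compl hdis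
    refine ⟨δ / 2, by positivity, ?_⟩
    rintro ⟨k, h1, h2⟩
    have h3 : s + k * h ∈ thickening δ (Icc lo hi) → False := fun h4 => hδU h4 ⟨k, rfl⟩
    apply h3
    rw [mem_thickening_iff]
    refine ⟨max lo (min (s + k * h) hi), ⟨le_max_left _ _, max_le hle (min_le_right _ _)⟩, ?_⟩
    rw [Real.dist_eq]
    rcases le_total (s + k * h) hi with h5 | h5
    · rw [min_eq_left h5]
      rcases le_total lo (s + k * h) with h6 | h6
      · rw [max_eq_right h6, sub_self, abs_zero]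
        exact hδ
      · rw [max_eq_left h6, abs_of_nonpos (by linarith)]
        linarith
    · rw [min_eq_right h5, max_eq_right hle, abs_of_nonneg (by linarith)]
      linarith
  · refine ⟨(lo - hi) / 4, by linarith, ?_⟩
    rintro ⟨k, h1, h2⟩
    linarith

/-- levels of two coordinates -/
def two {ι : Type*} (h : ℝ) (s lo hi : ι → ℝ) : Prop :=
  ∃ i j, i ≠ j ∧ hitc h (s i) (lo i) (hi i) ∧ hitc h (s j) (lo j) (hi j)

/-- bad boxes -/
def bad {ι : Type*} (h : ℝ) (s lo hi : ι → ℝ) : Prop := two h s lo hi ∨ ∃ i, h ≤ hi i - lo i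

variable {ι : Type*} [Fintype ι] {w : Set ℂ} {k : ℕ} {lo hi : ι → Set ℂ → ℝ} {a b : ι → ℂ → ℝ}

/-- **[7] (E)**: the nodes, after the offsets -/
theorem nod (hK : IsCompact K) (hf : Full K) (hwK : IsCompact (K ∩ w))
    (hw : ∀ z ∈ K ∩ w, nd K k z ⊆ w)
    (h2 : ∀ i, ∀ z ∈ K ∩ w, ∀ ε > 0, ∃ m, ∀ n ≥ m,
      a i z - ε ≤ lo i (nd K n z) ∧ hi i (nd K n z) ≤ b i z + ε) {h : ℝ} (hh : 0 < h)
    (s : ι → ℝ) (bd : Finset ℂ) (hbd : ∀ t ∈ bd, t ∈ K ∩ w)
    (hbad : ∀ z ∈ K ∩ w, bad h s (fun i => a i z) (fun i => b i z) →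
      ∃ t ∈ bd, connectedComponentIn K t = connectedComponentIn K z) {η : ℝ} (hη : 0 < η) (N : ℕ) :
    ∃ (QQ MM : Finset (Set ℂ)) (c : Set ℂ → ℂ) (ρ : ℝ), 0 < ρ ∧ MM ⊆ QQ ∧
      (∀ Q ∈ QQ, ∃ z ∈ K ∩ w, ∃ n, N ≤ n ∧ k ≤ n ∧ Q = nd K n z) ∧ (∀ Q ∈ QQ, Q ⊆ w) ∧
      (∀ Q ∈ QQ, ∀ Q' ∈ QQ, Q ≠ Q' → Disjoint Q Q') ∧ K ∩ w ⊆ ⋃ Q ∈ QQ, Q ∧
      (∀ Q ∈ MM, c Q ∈ bd ∧ c Q ∈ Q ∧ ∀ i, a i (c Q) - η ≤ lo i Q ∧ hi i Q ≤ b i (c Q) + η) ∧
      (∀ t ∈ bd, ∃ Q ∈ MM, t ∈ Q) ∧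
      ∀ Q ∈ QQ, Q ∉ MM → (∀ i, hi i Q - lo i Q + 2 * ρ < h) ∧
        ¬ two h s (fun i => lo i Q - ρ) (fun i => hi i Q + ρ) := by
  refine node_family hK hf hwK hw bd hbd
    (fun ρ Q => (∀ i, hi i Q - lo i Q + 2 * ρ < h) ∧
      ¬ two h s (fun i => lo i Q - ρ) (fun i => hi i Q + ρ)) ?_ ?_
    (fun t Q => ∀ i, a i t - η ≤ lo i Q ∧ hi i Q ≤ b i t + η) ?_ N
  · rintro ρ ρ' Q hρ ⟨h3, h4⟩
    refine ⟨fun i => by linarith [h3 i], fun ⟨i, j, hij, h5, h6⟩ => h4 ⟨i, j, hij, ?_, ?_⟩⟩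
    · exact hitc_mono (by linarith) (by linarith) h5
    · exact hitc_mono (by linarith) (by linarith) h6
  · intro z hz hzt
    have hnb : ¬ bad h s (fun i => a i z) (fun i => b i z) := fun hb => by
      obtain ⟨t, ht, h3⟩ := hbad z hz hb
      exact hzt t ht h3
    unfold bad at hnb
    push Not at hnb
    obtain ⟨h3, h4⟩ := hnb
    have h5 : ∀ i, ∃ ρ > 0, (¬ hitc h (s i) (a i z) (b i z) →
        ¬ hitc h (s i) (a i z - ρ) (b i z + ρ)) ∧ b i z - a i z + 4 * ρ < h := by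
      intro i
      have h6 := h4 i
      by_cases h7 : hitc h (s i) (a i z) (b i z)
      · exact ⟨(h - (b i z - a i z)) / 8, by linarith, fun h8 => absurd h7 h8, by linarith⟩
      · obtain ⟨ρ, hρ, h8⟩ := hitc_enlarge hh h7
        refine ⟨min ρ ((h - (b i z - a i z)) / 8), lt_min hρ (by linarith), fun _ h9 => h8 ?_, ?_⟩
        · have := min_le_left ρ ((h - (b i z - a i z)) / 8)
          exact hitc_mono (by linarith) (by linarith) h9
        · have := min_le_right ρ ((h - (b i z - a i z)) / 8)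
          linarith
    choose r hr0 hr1 hr2 using h5
    obtain ⟨ρ, hρ0, hρ⟩ : ∃ ρ > 0, ∀ i, ρ ≤ r i := by
      by_cases hne : Nonempty ι
      · obtain ⟨i, hi⟩ := Finite.exists_min r
        exact ⟨r i, hr0 i, hi⟩
      · exact ⟨1, one_pos, fun i => absurd ⟨i⟩ hne⟩
    have e2 : ∀ᶠ n in atTop, ∀ i, a i z - ρ / 2 ≤ lo i (nd K n z) ∧
        hi i (nd K n z) ≤ b i z + ρ / 2 := by
      rw [Filter.eventually_all]
      intro i
      obtain ⟨m, hm⟩ := h2 i z hz (ρ / 2) (by positivity)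
      filter_upwards [eventually_ge_atTop m] with n hn using hm n hn
    obtain ⟨m, hm⟩ := eventually_atTop.1 e2
    refine ⟨ρ / 2, by positivity, m, fun n hn => ⟨fun i => ?_, ?_⟩⟩
    · have h6 := hm n hn i
      have h7 := hρ i
      linarith [hr2 i, h6.1, h6.2]
    · rintro ⟨i, j, hij, h6, h7⟩
      have key : ∀ l, hitc h (s l) (lo l (nd K n z) - ρ / 2) (hi l (nd K n z) + ρ / 2) →
          hitc h (s l) (a l z) (b l z) := by
        intro l hl
        by_contra hcon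
        refine hr1 l hcon (hitc_mono ?_ ?_ hl)
        · linarith [hρ l, (hm n hn l).1]
        · linarith [hρ l, (hm n hn l).2]
      exact h3 ⟨i, j, hij, key i h6, key j h7⟩
  · intro t ht
    have e2 : ∀ᶠ n in atTop, ∀ i, a i t - η ≤ lo i (nd K n t) ∧ hi i (nd K n t) ≤ b i t + η := by
      rw [Filter.eventually_all]
      intro i
      obtain ⟨m, hm⟩ := h2 i t (hbd t ht) η hη
      filter_upwards [eventually_ge_atTop m] with n hn using hm n hn
    obtain ⟨m, hm⟩ := eventually_atTop.1 e2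
    exact ⟨m, hm⟩

end Vale.Agent.P116.KB.H984
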